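import Vale.Agent.P004Z.Ar.The
import Vale.Agent.P027H.Unif

/-! # P014T, block BX: the square of the theta function solves the parallelogram law -/

set_option autoImplicit false
set_option linter.all false

open Filter Topology Complex
open scoped Classical Real ComplexConjugate

noncomputable section

namespace Vale.Agent.P014T.Bx

open Vale.Agent.P004H.H666 Vale.Agent.P004Z.Ar Vale.Agent.P004Z.Ar.Te Vale.Agent.P004Z.H
open Vale.Agent.P027H (IsLat wp dwp mem_of_eq)

variable {Λ : Submodule ℤ ℂ}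

theorem basis (h : IsLat Λ) : ∃ w1 w2 : ℂ, 0 < (conj w1 * w2).im ∧
    ∀ z, z ∈ Λ ↔ ∃ m n : ℤ, z = m * w1 + n * w2 := by
  obtain ⟨L, rfl⟩ := h
  rcases orient L with k | k
  · exact ⟨_, _, k, fun z => by simp only [PeriodPair.mem_lattice, eq_comm]⟩
  · exact ⟨_, _, k, fun z => PeriodPair.mem_lattice.trans
      ⟨fun ⟨m, n, e⟩ => ⟨n, m, by rw [← e, add_comm]⟩, fun ⟨m, n, e⟩ => ⟨n, m, by rw [e, add_comm]⟩⟩⟩

/-- the theta function with its constant -/
theorem the' (h : IsLat Λ) {w1 w2 : ℂ} (pos : 0 < (conj w1 * w2).im)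
    (hw : ∀ z, z ∈ Λ ↔ ∃ m n : ℤ, z = m * w1 + n * w2) : ∃ θ, Th Λ θ (π / (conj w1 * w2).im) := by
  obtain ⟨S, h1, h2', h3', h4⟩ := P009.H634.exists_sigma w1 w2 pos
  have h3 := fun z => (h3' z).trans (hw z).symm
  have hb : π / (conj w1 * w2).im ≠ 0 := by positivity
  have h2 : ∀ z, ∀ l ∈ Λ, ‖S (z + l)‖ * Real.exp (-(π / (conj w1 * w2).im / 2) * ‖z + l‖ ^ 2) =
      ‖S z‖ * Real.exp (-(π / (conj w1 * w2).im / 2) * ‖z‖ ^ 2) := fun z l hl => by
    obtain ⟨m, n, rfl⟩ := (hw l).1 hl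
    rw [div_div, mul_comm _ (2 : ℝ)]
    exact h2' z m n
  generalize π / (conj w1 * w2).im = b at *
  obtain ⟨c, -, hc, -⟩ := h.exists_two
  have d0 := h4 0 ((h3 0).2 Λ.zero_mem)
  have hn : Differentiable ℂ fun z => S (-z) := h1.comp differentiable_neg
  obtain ⟨f, hf, e⟩ := div_ent hn h1 fun z hz => ⟨(h3 _).2 (neg_mem ((h3 z).1 hz)), h4 z hz⟩
  obtain ⟨C, hC⟩ := bdd h hf.continuous.norm fun z l hl => by
    refine congrFun (Continuous.ext_on ((cnt h).dense_compl ℂ) (f := fun z => ‖f (z + l)‖)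
      (g := fun z => ‖f z‖) (hf.continuous.comp (by fun_prop)).norm hf.continuous.norm
      fun z hz => ?_) z
    have k1 := h2 z l hl
    have k2 := h2 (-z) (-l) (neg_mem hl)
    rw [← neg_add, e, e, norm_neg, norm_neg, norm_mul, norm_mul, mul_assoc, mul_assoc, k1] at k2
    exact mul_right_cancel₀ (mul_ne_zero (norm_ne_zero_iff.2 (mt (h3 z).1 hz)) (Real.exp_ne_zero _)) k2
  have k := fun z => hf.apply_eq_apply_of_bounded (isBounded_iff_forall_norm_le.2
    ⟨C, by rintro _ ⟨z, rfl⟩; exact (le_abs_self _).trans (hC z)⟩) z 0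
  have k1 : f 0 = -1 := by
    have e1 : (fun z => S (-z)) = fun z => f 0 * S z := funext fun z => by rw [e, k]
    have e2 := deriv_comp_neg S 0
    rw [e1, deriv_const_mul _ (h1 0), neg_zero] at e2
    exact mul_right_cancel₀ d0 (by rw [e2, neg_one_mul])
  refine ⟨fun z => S z / deriv S 0, h1.div_const _, fun u => ?_, fun u => ?_, ?_, hb,
    fun l hl => ?_⟩
  · rw [e, k, k1, neg_one_mul, neg_div]
  · rw [div_eq_zero_iff, or_iff_left d0, h3]
  · rw [deriv_div_const, div_self d0]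
  · obtain ⟨η, n, k2⟩ := unit (g := fun u => S (u + l))
      (k := fun u => cexp (b * conj l * (u + l / 2)) * S u) (h1.comp (by fun_prop))
      (by fun_prop) (mul_ne_zero (exp_ne_zero _) (mt (h3 c).1 hc)) fun u => by
        refine mul_right_cancel₀ (Real.exp_ne_zero (-(b / 2) * ‖u + l‖ ^ 2)) ?_
        rw [h2 u l hl, norm_mul, mul_comm _ ‖S u‖, mul_assoc,
          (eq_div_iff (Real.exp_ne_zero _)).2 (norm_ex b l u), ← Real.exp_sub, ← Real.exp_add]
        congr 2
        ring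
    exact ⟨η, n, fun u => by rw [k2]; ring⟩

/-- **the analytic solution of the parallelogram law** -/
theorem an (A B : ℂ) (hD : 4 * A ^ 3 + 27 * B ^ 2 ≠ 0) :
    ∃ (ex : ℂ →+ (crv A B).Point) (s : ℂ → ℂ) (w1 w2 : ℂ) (b : ℝ), Function.Surjective ex ∧
      (∀ z, ex z = 0 ↔ ∃ m n : ℤ, z = m * w1 + n * w2) ∧ b * (conj w1 * w2).im = π ∧
      (∀ u, s u ≠ 0) ∧ (∀ u, s (-u) = s u) ∧
      (∀ u v, s (u + v) * s (u - v) = cc (ex u) (ex v) * s u ^ 2 * s v ^ 2) ∧
      ∀ l u, ex l = 0 → s (l + u) = cexp (2 * b * conj l * u) * s l * s u := by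
  obtain ⟨Λ, hL, -, -, ex0, sj, ker0, xy⟩ := P027H.exists_unif A B hD
  obtain ⟨ex, hex⟩ : ∃ ex : ℂ →+ (crv A B).Point, ex = ex0 := ⟨ex0, rfl⟩
  have ker : ∀ z, ex z = 0 ↔ z ∈ Λ := hex ▸ ker0
  have hx : ∀ u, u ∉ Λ → xp (ex u) = wp Λ u := fun u k => by
    have k1 := (xy u).1
    have k3 := mt (ker0 u).1 k
    rw [hex]
    generalize ex0 u = Q at k1 k3
    rcases Q with _ | ⟨x, y, n⟩
    · exact absurd rfl k3
    · exact k1
  have hD' : 16 * (4 * A ^ 3 + 27 * B ^ 2) ≠ 0 := mul_ne_zero (by norm_num) hD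
  obtain ⟨w1, w2, pos, hw⟩ := basis hL
  obtain ⟨θ, h⟩ := the' hL pos hw
  generalize hb : π / (conj w1 * w2).im = b at h
  obtain ⟨v, -, hv, -⟩ := hL.exists_two
  have a := h.an.continuous
  have nv := h.ne' hv
  let X : ℂ → ℂ := fun u => θ u ^ 2 * wp Λ v - θ (u + v) * θ (u - v) / θ v ^ 2
  have cX : Continuous X := by fun_prop
  have eX : ∀ u, u ∉ Λ → X u = θ u ^ 2 * wp Λ u := fun u hu => by
    have := h.ne' hu
    have e := h.sub hL hu hv
    simp only [X]
    field_simp at e ⊢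
    linear_combination -e
  have z0 := (h.zero 0).2 Λ.zero_mem
  have X0 : X 0 = 1 := by
    simp only [X, z0, zero_add, zero_sub, h.odd]
    field_simp
    ring
  have law : ∀ l ∈ Λ, ∃ c : ℂ, c ≠ 0 ∧ ∀ u, θ (u + l) ^ 2 = cexp (2 * b * conj l * u) * c * θ u ^ 2 ∧
      X (u + l) = cexp (2 * b * conj l * u) * c * X u := fun l hl => by
    obtain ⟨η, n, k⟩ := h.pair hl
    have e : ∀ u, (η * cexp (b * conj l * (u + l / 2))) ^ 2 =
        cexp (2 * b * conj l * u) * (η * cexp (b * conj l * (l / 2))) ^ 2 := fun u => by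
      rw [mul_pow, mul_pow, ← Complex.exp_nat_mul, ← Complex.exp_nat_mul, mul_left_comm (cexp _),
        ← Complex.exp_add]
      congr 2
      push_cast
      ring
    refine ⟨(η * cexp (b * conj l * (l / 2))) ^ 2, pow_ne_zero _
      (mul_ne_zero (norm_ne_zero_iff.1 (n ▸ one_ne_zero)) (exp_ne_zero _)), fun u => ?_⟩
    have k0 := k u 0
    simp only [add_zero, sub_zero, ← sq] at k0
    refine ⟨by rw [k0, e], ?_⟩
    simp only [X]
    rw [k, k0, e]
    ring
  let s : ℂ → ℂ := fun u => if u ∈ Λ then X u else θ u ^ 2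
  have s0 : ∀ u, s u ≠ 0 := fun u => by
    simp only [s]
    split_ifs with hu
    · obtain ⟨c, c0, k⟩ := law u hu
      have := (k 0).2
      rw [zero_add, X0] at this
      rw [this]
      exact mul_ne_zero (mul_ne_zero (exp_ne_zero _) c0) one_ne_zero
    · exact pow_ne_zero _ (h.ne' hu)
  have sx : ∀ u, X u = s u * xp (ex u) ∧ θ u ^ 2 = s u * zp (ex u) := fun u => by
    simp only [s]
    split_ifs with hu
    · rw [(ker u).2 hu, (h.zero u).2 hu]
      simp
    · rw [hx u hu, zp_one (mt (ker u).1 hu), mul_one]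
      exact ⟨eX u hu, rfl⟩
  have sst : ∀ u v, st (X u) (θ u ^ 2) (X v) (θ v ^ 2) =
      (s u * s v) • st (xp (ex u)) (zp (ex u)) (xp (ex v)) (zp (ex v)) := fun u v => by
    rw [(sx u).1, (sx u).2, (sx v).1, (sx v).2]
    ext i
    fin_cases i <;> simp [st] <;> ring
  have iff : ∀ u v, FF A B (st (X u) (θ u ^ 2) (X v) (θ v ^ 2)) =
      st (X (u + v)) (θ (u + v) ^ 2) (X (u - v)) (θ (u - v) ^ 2) ↔
      s (u + v) * s (u - v) = cc (ex u) (ex v) * s u ^ 2 * s v ^ 2 := fun u v => by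
    rw [sst, sst, FF_smul, (cc_spec hD' _ _).2, smul_smul, map_add, map_sub,
      (smul_left_injective ℂ (st_ne (xz_ne _) (xz_ne _))).eq_iff, eq_comm]
    exact Eq.congr_right (by ring)
  have c1 : ∀ f g : ℂ → ℂ, Continuous f → Continuous g →
      (Continuous fun t => FF A B (st (X (f t)) (θ (f t) ^ 2) (X (g t)) (θ (g t) ^ 2))) ∧
      Continuous fun t => st (X (f t)) (θ (f t) ^ 2) (X (g t)) (θ (g t) ^ 2) := fun f g hf hg =>
    ⟨continuous_pi fun i => by fin_cases i <;> simp [FF, st] <;> fun_prop,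
      continuous_pi fun i => by fin_cases i <;> simp [st] <;> fun_prop⟩
  have g1 : ∀ v, v ∉ Λ → ∀ u, FF A B (st (X u) (θ u ^ 2) (X v) (θ v ^ 2)) =
      st (X (u + v)) (θ (u + v) ^ 2) (X (u - v)) (θ (u - v) ^ 2) := fun v hv u => by
    have c2 : ((Λ : Set ℂ) ∪ ((fun u => u + v) ⁻¹' Λ ∪ (fun u => u - v) ⁻¹' Λ)).Countable :=
      (cnt hL).union (((cnt hL).preimage (add_left_injective v)).union
        ((cnt hL).preimage sub_left_injective))
    refine congrFun (Continuous.ext_on (c2.dense_compl ℂ) (c1 id (fun _ => v) continuous_id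
      continuous_const).1 (c1 (· + v) (· - v) (by fun_prop) (by fun_prop)).2 fun u hu => ?_) u
    simp only [Set.mem_compl_iff, Set.mem_union, Set.mem_preimage, SetLike.mem_coe, not_or] at hu
    refine (iff u v).2 ?_
    have := h.ne' hu.1
    have := h.ne' hv
    rw [cc_aff (mt (ker u).1 hu.1) (mt (ker v).1 hv) (by rw [← map_add]; exact mt (ker _).1 hu.2.1)
      (by rw [← map_sub]; exact mt (ker _).1 hu.2.2), hx u hu.1, hx v hv, h.sub hL hu.1 hv]
    simp only [s, if_neg hu.1, if_neg hv, if_neg hu.2.1, if_neg hu.2.2]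
    field_simp
  refine ⟨ex, s, w1, w2, b, hex ▸ sj, fun z => (ker z).trans (hw z), ?_, s0, fun u => ?_,
    fun u v => (iff u v).1 ?_, fun l u hl => ?_⟩
  · rw [← hb, div_mul_cancel₀ _ pos.ne']
  · simp only [s, X, neg_mem_iff]
    rw [h.odd, neg_add_eq_sub, ← neg_sub u v, h.odd, ← neg_add', h.odd]
    simp only [neg_sq, mul_neg, neg_mul, neg_neg, mul_comm (θ (u - v))]
  · exact congrFun (Continuous.ext_on ((cnt hL).dense_compl ℂ) (c1 (fun _ => u) id continuous_const
      continuous_id).1 (c1 (u + ·) (u - ·) (by fun_prop) (by fun_prop)).2 fun v hv => g1 v hv u) v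
  · have hl' := (ker l).1 hl
    obtain ⟨c, c0, k⟩ := law l hl'
    have e : s l = c := by
      have := (k 0).2
      simp only [s, if_pos hl']
      simpa [X0] using this
    rw [e, add_comm]
    simp only [s, Λ.add_mem_iff_left hl']
    split_ifs
    exacts [(k u).2, (k u).1]

end Vale.Agent.P014T.Bx
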