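import Vale.Agent.P014T.Bx.S
import Vale.Agent.P022K.CH.Fld
import Vale.Agent.P004K.St2

/-! # P014T, block BX: local lemmas -/

set_option autoImplicit false
set_option linter.all false

open NumberField Real
open scoped Classical Pointwise

noncomputable section

namespace Vale.Agent.P014T.Bx

open Vale.Agent.P004H.H666 Vale.Agent.P004Z.H Vale.Agent.P004M.TE
open Vale.Agent.P022D.W (dec)
open Vale.Agent.P022.H443 (inP)
open Vale.Agent.P022E.GW (Ov)
open Vale.Agent.P004K (K1 Ip)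

section abs

variable {F : Type} [Field F] {v : AbsoluteValue F ℝ} (hv : IsNonarchimedean v)
include hv

theorem add_lt {x y : F} (hx : v x < 1) (hy : v y < 1) : v (x + y) < 1 :=
  (hv x y).trans_lt (max_lt hx hy)

theorem add_le {x y : F} (hx : v x ≤ 1) (hy : v y ≤ 1) : v (x + y) ≤ 1 :=
  (hv x y).trans (max_le hx hy)

theorem sub_lt {x y : F} (hx : v x < 1) (hy : v y < 1) : v (x - y) < 1 := by
  rw [sub_eq_add_neg]
  exact add_lt hv hx (by rwa [v.map_neg])

omit hv in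
theorem mul_lt {x y : F} (hx : v x ≤ 1) (hy : v y < 1) : v (x * y) < 1 := by
  rw [map_mul]
  exact mul_lt_one_of_nonneg_of_lt_one_right hx (v.nonneg _) hy

omit hv in
theorem mul_le {x y : F} (hx : v x ≤ 1) (hy : v y ≤ 1) : v (x * y) ≤ 1 := by
  rw [map_mul]
  exact mul_le_one₀ hx (v.nonneg _) hy

theorem one_of {x : F} (h : v (x - 1) < 1) : v x = 1 := by
  refine le_antisymm (by simpa using add_le hv h.le (y := 1) (by simp)) (not_lt.1 fun k => ?_)
  simpa using sub_lt hv k h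

/-- the principal units -/
def U1 : AddSubgroup (Additive Fˣ) where
  carrier := {x | v (vl x - 1) < 1}
  zero_mem' := by simp [vl_zero]
  add_mem' {x y} hx hy := by
    change v (vl x * vl y - 1) < 1
    rw [show vl x * vl y - 1 = vl x * (vl y - 1) + (vl x - 1) by ring]
    exact add_lt hv (mul_lt (one_of hv hx).le hy) hx
  neg_mem' {x} hx := by
    change v (vl (-x) - 1) < 1
    have := vl_ne x
    rw [vl_neg, show (vl x)⁻¹ - 1 = -(vl x)⁻¹ * (vl x - 1) by field_simp; ring]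
    exact mul_lt (by rw [v.map_neg, map_inv₀, one_of hv hx, inv_one]) hx

theorem mem_U1 {x : Additive Fˣ} : x ∈ U1 hv ↔ v (vl x - 1) < 1 := Iff.rfl

theorem root_one (h2 : v 2 = 1) {n : ℕ} {x : Additive Fˣ} (h : 2 ^ n • x = 0) (k : x ∈ U1 hv) :
    x = 0 := by
  induction n with
  | zero => simpa using h
  | succ n ih =>
    refine ih (vl_inj ?_)
    have e : vl (2 ^ n • x) ^ 2 = 1 := by rw [← vl_smul, ← mul_smul, ← pow_succ', h, vl_zero]
    refine (sq_eq_one_iff.1 e).elim id fun j => ?_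
    have := (mem_U1 hv).1 (nsmul_mem k (2 ^ n))
    rw [j, show (-1 - 1 : F) = -2 by norm_num, v.map_neg, h2] at this
    exact absurd this (lt_irrefl _)

theorem root_near [IsAlgClosed F] {n : ℕ} {x : Additive Fˣ} (h : 2 ^ n • x ∈ U1 hv) :
    ∃ z, 2 ^ n • z = 0 ∧ x - z ∈ U1 hv := by
  induction n generalizing x with
  | zero => exact ⟨0, smul_zero _, by simpa using h⟩
  | succ n ih =>
    obtain ⟨z, h1, h2⟩ := ih (x := 2 • x) (by rwa [← mul_smul, ← pow_succ])
    obtain ⟨y, hy⟩ := IsAlgClosed.exists_pow_nat_eq (vl z) two_pos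
    have y0 : y ≠ 0 := fun e => vl_ne z (by rw [← hy, e]; simp)
    have e : v (vl x / y - 1) * v (vl x / -y - 1) < 1 := by
      rw [mem_U1, vl_sub, vl_smul, ← hy] at h2
      rwa [← map_mul, show (vl x / y - 1) * (vl x / -y - 1) = -(vl x ^ 2 / y ^ 2 - 1) by
        field_simp; ring, v.map_neg]
    have k : ∀ y : F, y ≠ 0 → y ^ 2 = vl z → v (vl x / y - 1) < 1 →
        ∃ z, 2 ^ (n + 1) • z = 0 ∧ x - z ∈ U1 hv := fun y y0 hy k =>
      ⟨um y, by rw [pow_succ, mul_smul, ← um_pow y0, hy, um_vl, h1],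
        by rwa [mem_U1, vl_sub, vl_um y0]⟩
    by_cases c : v (vl x / y - 1) < 1
    · exact k y y0 hy c
    · refine k (-y) (neg_ne_zero.2 y0) (by rw [neg_sq, hy]) (not_le.1 fun j => e.not_ge ?_)
      exact one_le_mul_of_one_le_of_one_le (not_lt.1 c) j

omit hv in
/-- the logarithm of the absolute value -/
def lv (v : AbsoluteValue F ℝ) : Additive Fˣ →+ ℝ :=
  AddMonoidHom.mk' (fun x => log (v (vl x))) fun x y => by
    rw [vl_add, map_mul, log_mul (v.pos (vl_ne x)).ne' (v.pos (vl_ne y)).ne']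

omit hv in
theorem lv_um {x : F} (h : x ≠ 0) : lv v (um x) = log (v x) := congrArg (fun y => log (v y)) (vl_um h)

omit hv in
theorem lv_zero {x : Additive Fˣ} (h : lv v x = 0) : v (vl x) = 1 :=
  eq_one_of_pos_of_log_eq_zero (v.pos (vl_ne x)) h

variable {A B : F} (hA : v A ≤ 1) (hB : v B ≤ 1)

omit hv in
/-- the larger coordinate -/
def nn (v : AbsoluteValue F ℝ) (P : (crv A B).Point) : F := if 1 < v (xp P) then xp P else 1

omit hv in
theorem nn_ne (P : (crv A B).Point) : nn v P ≠ 0 := by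
  rw [nn]
  split_ifs with h
  · exact fun e => by rw [e, map_zero] at h; exact absurd h (by norm_num)
  · exact one_ne_zero

omit hv in
theorem nn_zero : nn v (0 : (crv A B).Point) = 1 := by simp [nn]

omit hv in
theorem lv_nn (P : (crv A B).Point) : lv v (um (nn v P)) = 2 * nh v P := by
  rw [lv_um (nn_ne P), nh, mul_div_cancel₀ _ two_ne_zero, nn]
  by_cases h : P = 0
  · simp [h]
  rw [zp_one h, map_one]
  split_ifs with k
  · rw [max_eq_left k.le]
  · rw [max_eq_right (not_lt.1 k), map_one]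

include hA hB

theorem par_good (hD : v (16 * (4 * A ^ 3 + 27 * B ^ 2)) = 1) (P Q : (crv A B).Point) :
    lv v (um (cc P Q)) + lv v (um (nn v (P + Q))) + lv v (um (nn v (P - Q))) =
      2 • lv v (um (nn v P)) + 2 • lv v (um (nn v Q)) := by
  have s := sz_one hv hA hB hD
  have := par (v := v) s.ne P Q
  simp only [lam_good s] at this
  simp only [lv_nn, lv_um (cc_ne s.ne P Q), nsmul_eq_mul]
  push_cast
  linarith

theorem par_one (hD : 16 * (4 * A ^ 3 + 27 * B ^ 2) ≠ 0) {P Q : (crv A B).Point}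
    (hP : v (zp P) < v (xp P)) (hQ : v (zp Q) < v (xp Q)) :
    v (cc P Q * xp (P + Q) * xp (P - Q) / (xp P * xp Q) ^ 2 - 1) < 1 := by
  have e := congrFun (cc_spec hD P Q).2 0
  simp only [FF, st, Matrix.cons_val_zero, Matrix.cons_val_one, Matrix.cons_val, Pi.smul_apply,
    smul_eq_mul] at e
  have p := (v.nonneg _).trans_lt hP
  have q := (v.nonneg _).trans_lt hQ
  have a : v (zp P / xp P) < 1 := by rw [map_div₀, div_lt_one p]; exact hP
  have b : v (zp Q / xp Q) < 1 := by rw [map_div₀, div_lt_one q]; exact hQ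
  have := v.pos_iff.1 p
  have := v.pos_iff.1 q
  have i : ∀ n : ℤ, v n ≤ 1 := fun n => hv.apply_intCast_le_one
  rw [mul_assoc, ← e, show ((xp P * xp Q - A * (zp P * zp Q)) ^ 2 -
      4 * B * (xp P * zp Q + zp P * xp Q) * (zp P * zp Q)) / (xp P * xp Q) ^ 2 - 1 =
      (((-2 : ℤ) * A + A * A * (zp P / xp P * (zp Q / xp Q)) +
        (-4 : ℤ) * B * (zp P / xp P + zp Q / xp Q)) * (zp P / xp P)) * (zp Q / xp Q) by
    push_cast; field_simp; ring]
  exact mul_lt (mul_le (add_le hv (add_le hv (mul_le (i _) hA) (mul_le (mul_le hA hA)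
    (mul_le a.le b.le))) (mul_le (mul_le (i _) hB) (add_le hv a.le b.le))) a.le) b

end abs

/-- the absolute value of a prime -/
structure Av (P : Ideal (𝓞 Qb)) (v : AbsoluteValue Qb ℝ) : Prop where
  na : IsNonarchimedean v
  le : ∀ x : 𝓞 Qb, v x ≤ 1
  lt : ∀ x : 𝓞 Qb, v x < 1 ↔ x ∈ P

open P022D.Loc2 in
theorem ex_av {l : ℕ} {P : Ideal (𝓞 Qb)} (h : Ov l P) : ∃ v, Av P v := by
  have : Fact l.Prime := ⟨h.1⟩
  obtain ⟨s, rfl⟩ := P022K.CH.Fld.ov_conj ⟨h.1, PP_prime l, p_mem_PP l⟩ h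
  let w : AbsoluteValue Qb ℝ := (NormedField.toAbsoluteValue (PadicAlgCl l)).comp
    (f := (P022D.Loc2.io l).toRingHom.comp (s⁻¹ : GQ).toRingEquiv.toRingHom) (RingHom.injective _)
  refine ⟨w, fun a b => ?_, fun x => norm_int l (s⁻¹ • x), fun x => ?_⟩
  · change ‖P022D.Loc2.io l (s⁻¹ (a + b))‖ ≤ max ‖P022D.Loc2.io l (s⁻¹ a)‖ ‖P022D.Loc2.io l (s⁻¹ b)‖
    rw [map_add, map_add]
    exact IsUltrametricDist.norm_add_le_max _ _
  · rw [Ideal.mem_pointwise_smul_iff_inv_smul_mem, mem_PP]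
    rfl

namespace Av

variable {l : ℕ} {P : Ideal (𝓞 Qb)} {v : AbsoluteValue Qb ℝ} (h : Av P v) (o : Ov l P)
include h

theorem one {x : 𝓞 Qb} (k : x ∉ P) : v x = 1 :=
  le_antisymm (h.le x) (not_lt.1 fun j => k ((h.lt x).1 j))

include o

theorem int (n : ℤ) : v n = 1 ↔ ¬ (l : ℤ) ∣ n := by
  refine ⟨fun e ⟨k, j⟩ => ?_, fun e => h.one (x := n) fun j => e (P022.H20.dvd_of_mem o.1 o.2.1 o.2.2 j)⟩
  have := mul_lt (h.le k) ((h.lt l).2 o.2.2)
  rw [j, Int.cast_mul, mul_comm] at e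
  exact this.ne (by simpa using e)

theorem ip (x : Qb) : Ip P x ↔ v x ≤ 1 := by
  refine ⟨fun ⟨s, t, a, e⟩ => ?_, fun k => ?_⟩
  · have := h.le t
    rwa [← e, map_mul, h.one a, one_mul] at this
  obtain ⟨s, t, a, e | e⟩ := dich o.2.1 o.1.ne_zero o.2.2 x
  · exact ⟨s, t, a, e⟩
  · exact ⟨t, s, fun j => (mul_lt k ((h.lt t).2 j)).ne (by rw [e, h.one a]), by rw [mul_comm, e]⟩

theorem k1 {A B : ℤ} {y : Pt A B} (k : K1 P y) : v (zp y) < v (xp y) := by
  rcases y with _ | ⟨a, b, j⟩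
  · change v 0 < v 1
    simp
  · change v 1 < v a
    rw [map_one]
    exact not_le.1 fun i => k a b j rfl ((h.ip o a).2 i)

theorem dec_lt {g : GQ} (hg : g ∈ dec P) {x : Qb} (k : v x < 1) : v (g x) < 1 := by
  obtain ⟨s, t, a, e⟩ := (h.ip o x).2 k.le
  have t1 : t ∈ P := (h.lt t).1 (by rw [← e]; exact mul_lt (h.le s) k)
  have := (h.lt _).2 ((hg t).2 t1)
  change v (g t) < 1 at this
  rw [← e, map_mul, map_mul] at this
  have j : v (g s) = 1 := h.one (x := g • s) fun j => a ((hg s).1 j)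
  rwa [j, one_mul] at this

theorem in_lt {g : GQ} (hg : g ∈ inP P) {x : Qb} (k : v x ≤ 1) : v (g x - x) < 1 := by
  obtain ⟨s, t, a, e⟩ := (h.ip o x).2 k
  have j : v (g s) = 1 := h.one (x := g • s) fun j => a (by simpa using P.sub_mem j (hg s))
  have a1 : v (g s - s) < 1 := (h.lt _).2 (hg s)
  have a2 : v (g t - t) < 1 := (h.lt _).2 (hg t)
  have e' := congrArg g e
  rw [map_mul] at e'
  have := sub_lt h.na a2 (mul_lt k a1)
  rwa [show g t - t - x * (g s - s) = g s * (g x - x) by rw [← e', ← e]; ring, map_mul, j,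
    one_mul] at this

end Av

theorem unr_pt {A B : ℤ} {l : ℕ} {P : Ideal (𝓞 Qb)} (o : Ov l P)
    (hl : ¬ (l : ℤ) ∣ 2 * (4 * A ^ 3 + 27 * B ^ 2)) {g : GQ} (hg : g ∈ inP P) {n : ℕ} {y : Pt A B}
    (hy : ga g (2 ^ n • y) = 2 ^ n • y) : ga g y = y := by
  have : Fact l.Prime := ⟨o.1⟩
  obtain ⟨κ, _, _, _, rd, h1, h2, -⟩ := exists_rd hl o.2.1 o.2.2
  have k : ∀ (n : ℕ) (z : Pt A B), 2 ^ n • z = 0 → rd z = 0 → z = 0 := fun n => by
    induction n with
    | zero => exact fun z e _ => by simpa using e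
    | succ n ih =>
      exact fun z e r => h1 z (ih _ (by rwa [← mul_smul, ← pow_succ])
        (by rw [map_nsmul, r, smul_zero])) r
  exact sub_eq_zero.1 (k n _ (by rw [nsmul_sub, ← map_nsmul, hy, sub_self])
    (by rw [map_sub, h2 g hg, sub_self]))

end Vale.Agent.P014T.Bx
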