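import Mathlib

/-!
# P014T, block BX: functions which satisfy the theorem of the cube (abstract part)
-/

set_option linter.all false

namespace Vale.Agent.P014T.Bx

variable {A M E G : Type*} [AddCommGroup A] [AddCommGroup M] [AddCommGroup E]

/-- the polar form -/
def po (q : A → M) (a b : A) : M := q (a + b) - q a - q b

/-- the cube -/
def cu (q : A → M) (a b c : A) : M :=
  q (a + b + c) - q (a + b) - q (a + c) - q (b + c) + q a + q b + q c

theorem po_comm (q : A → M) (a b : A) : po q a b = po q b a := by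
  rw [po, po, add_comm b a]; abel

theorem po_add (q : A → M) (a b c : A) : po q a (b + c) = po q a b + po q a c + cu q a b c := by
  simp only [po, cu, add_assoc]; abel

theorem cu_12 (q : A → M) (a b c : A) : cu q a b c = cu q b a c := by
  rw [cu, cu, add_comm b a]; abel

theorem cu_23 (q : A → M) (a b c : A) : cu q a b c = cu q a c b := by
  rw [cu, cu, add_right_comm a c b, add_comm c b]; abel

theorem cu_map {M' : Type*} [AddCommGroup M'] (f : M →+ M') (q : A → M) (a b c : A) :
    cu (fun x => f (q x)) a b c = f (cu q a b c) := by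
  simp only [cu, map_add, map_sub]

theorem po_map {M' : Type*} [AddCommGroup M'] (f : M →+ M') (q : A → M) (a b : A) :
    po (fun x => f (q x)) a b = f (po q a b) := by
  simp only [po, map_sub]

theorem cu_comp {A' : Type*} [AddCommGroup A'] (f : A' →+ A) (q : A → M) (a b c : A') :
    cu (fun x => q (f x)) a b c = cu q (f a) (f b) (f c) := by
  simp only [cu, map_add]

theorem cu_sub (q q' : A → M) (a b c : A) :
    cu (fun x => q x - q' x) a b c = cu q a b c - cu q' a b c := by
  simp only [cu]; abel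

theorem cu_zero (q : A → M) (a b : A) : cu q 0 a b = q 0 := by
  simp only [cu, zero_add]; abel

/-- the cube from the parallelogram law -/
theorem cu_par {q : A → M} {k : A → A → M} {a b c : A}
    (h1 : q (a + b + c) + q (a + b - c) = k (a + b) c + 2 • q (a + b) + 2 • q c)
    (h2 : q (a + (b - c)) + q (a - (b - c)) = k a (b - c) + 2 • q a + 2 • q (b - c))
    (h3 : q (a + c + b) + q (a + c - b) = k (a + c) b + 2 • q (a + c) + 2 • q b)
    (h4 : q (b + c) + q (b - c) = k b c + 2 • q b + 2 • q c) :
    cu (fun x => 2 • q x) a b c = k (a + b) c + k (a + c) b - k a (b - c) - 2 • k b c := by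
  rw [show a + (b - c) = a + b - c by abel, show a - (b - c) = a + c - b by abel] at h2
  rw [show a + c + b = a + b + c by abel] at h3
  simp only [cu]
  linear_combination (norm := module) h1 + h3 - h2 - 2 • h4

/-- the polar form of a quadratic function -/
def bil (q : A → M) (h : ∀ a b c, cu q a b c = 0) : A →+ A →+ M :=
  AddMonoidHom.mk' (fun a => AddMonoidHom.mk' (po q a) fun b c => by rw [po_add, h, add_zero])
    fun a b => AddMonoidHom.ext fun c => by
      change po q (a + b) c = po q a c + po q b c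
      rw [po_comm, po_add, h, add_zero, po_comm q c, po_comm q c]

theorem bil_apply (q : A → M) (h : ∀ a b c, cu q a b c = 0) (a b : A) : bil q h a b = po q a b := rfl

/-- normalised quadratic functions on a free group vanish -/
theorem triv {X : Type*} {q : (X →₀ ℤ) → M} (hc : ∀ a b c, cu q a b c = 0) (hn : ∀ a, q (-a) = q a)
    (h1 : ∀ x, q (Finsupp.single x 1) = 0)
    (h2 : ∀ x y, x ≠ y → q (Finsupp.single x 1 + Finsupp.single y 1) = 0) (a : X →₀ ℤ) : q a = 0 := by
  have h0 : q 0 = 0 := (cu_zero q 0 0).symm.trans (hc 0 0 0)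
  have ex : ∀ {f : (X →₀ ℤ) →+ M}, (∀ x, f (Finsupp.single x 1) = 0) → f = 0 := fun {f} h =>
    Finsupp.addHom_ext fun x n => by
      rw [show Finsupp.single x n = n • Finsupp.single x (1 : ℤ) by simp, map_zsmul, h, smul_zero]
      rfl
  have hb : ∀ x, bil q hc (Finsupp.single x 1) = 0 := fun x => ex fun y => by
    by_cases e : x = y
    · subst e
      rw [← neg_eq_zero, ← map_neg, bil_apply, po, add_neg_cancel, hn, h0, h1]
      simp
    · rw [bil_apply, po, h2 x y e, h1, h1]
      simp
  have hb' : ∀ a b, po q a b = 0 := fun a b => by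
    have : (bil q hc).flip b = 0 := ex fun x => by rw [AddMonoidHom.flip_apply, hb]; rfl
    exact DFunLike.congr_fun this a
  have := ex (f := AddMonoidHom.mk' q fun a b => by
    have := hb' a b
    rw [po] at this
    linear_combination (norm := module) this) h1
  exact DFunLike.congr_fun this a

/-- a cubical structure with an action -/
structure Cb [Group G] (α : G → A →+ A) (μ : G → M →+ M) (π : A →+ E) (S : A → M) : Prop where
  amul : ∀ g h a, α (g * h) a = α g (α h a)
  mmul : ∀ g h x, μ (g * h) x = μ g (μ h x)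
  eqv : ∀ g a, S (α g a) = μ g (S a)
  ker : ∀ g n, π n = 0 → π (α g n) = 0
  cu0 : ∀ n a b, π n = 0 → cu S n a b = 0

/-- the commutator pairing -/
def ee (S : A → M) (m : ℕ) (a b : A) : M := po S (m • a) b - po S (m • b) a

/-- the cochain -/
def F0 (α : G → A →+ A) (S : A → M) (m : ℕ) (p q p' q' : A) (g : G) : M :=
  po S (m • q' - q) (α g p' - p') - po S (α g (m • p' - p) - (m • p' - p)) q'

theorem ee_self (S : A → M) (m : ℕ) (a : A) : ee S m a a = 0 := sub_self _

theorem ee_swap (S : A → M) (m : ℕ) (a b : A) : ee S m a b = -ee S m b a := (neg_sub _ _).symm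

namespace Cb

variable [Group G] {α : G → A →+ A} {μ : G → M →+ M} {π : A →+ E} {S : A → M} (h : Cb α μ π S)
include h

/-- the polar form on the kernel -/
def B : π.ker →+ A →+ M :=
  AddMonoidHom.mk' (fun n => AddMonoidHom.mk' (po S n) fun b c => by
      rw [po_add, h.cu0 _ _ _ n.2, add_zero])
    fun a b => AddMonoidHom.ext fun c => by
      change po S (a + b) c = po S a c + po S b c
      rw [po_comm, po_add, cu_12, h.cu0 _ _ _ a.2, add_zero, po_comm S c, po_comm S c]

theorem B_eq {n : A} (hn : π n = 0) (a : A) : po S n a = h.B ⟨n, hn⟩ a := rfl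

theorem add_r {n : A} (hn : π n = 0) (a b : A) : po S n (a + b) = po S n a + po S n b :=
  map_add (h.B ⟨n, hn⟩) a b

theorem sub_r {n : A} (hn : π n = 0) (a b : A) : po S n (a - b) = po S n a - po S n b :=
  map_sub (h.B ⟨n, hn⟩) a b

theorem smul_r {n : A} (hn : π n = 0) (k : ℕ) (a : A) : po S n (k • a) = k • po S n a :=
  map_nsmul (h.B ⟨n, hn⟩) k a

theorem zero_r {n : A} (hn : π n = 0) : po S n 0 = 0 := map_zero (h.B ⟨n, hn⟩)

theorem add_l {n : A} (hn : π n = 0) (a b : A) : po S (n + a) b = po S n b + po S a b := by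
  rw [po_comm, po_add, cu_12, h.cu0 _ _ _ hn, add_zero, po_comm S b, po_comm S b]

theorem sub_l {n n' : A} (hn : π n = 0) (hn' : π n' = 0) (b : A) :
    po S (n - n') b = po S n b - po S n' b :=
  DFunLike.congr_fun (map_sub h.B ⟨n, hn⟩ ⟨n', hn'⟩) b

theorem smul_l {n : A} (hn : π n = 0) (k : ℕ) (b : A) : po S (k • n) b = k • po S n b :=
  DFunLike.congr_fun (map_nsmul h.B k ⟨n, hn⟩) b

theorem po_eqv (g : G) (a b : A) : po S (α g a) (α g b) = μ g (po S a b) := by
  simp only [po, ← map_add, h.eqv, map_sub]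

variable {m : ℕ} {a a' b : A}

theorem ee_add (ha : π (m • a) = 0) (hb : π (m • b) = 0) (a' : A) :
    ee S m (a + a') b = ee S m a b + ee S m a' b := by
  rw [ee, ee, ee, smul_add, h.add_l ha, h.add_r hb]; abel

theorem ee_ker (ha : π a = 0) (b : A) (hb : π (m • b) = 0) : ee S m a b = 0 := by
  rw [ee, h.smul_l ha, po_comm S (m • b), h.smul_r ha, sub_self]

theorem ee_congr (e : π a = π a') (hb : π (m • b) = 0) : ee S m a b = ee S m a' b := by
  have k : π (a - a') = 0 := by rw [map_sub, e, sub_self]
  have := h.ee_add (a := a - a') (by rw [map_nsmul, k, smul_zero]) hb a'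
  rwa [sub_add_cancel, h.ee_ker k b hb, zero_add] at this

theorem ee_smul (ha : π (m • a) = 0) (hb : π (m • b) = 0) : m • ee S m a b = 0 := by
  rw [ee, smul_sub, ← h.smul_r ha, ← h.smul_r hb, po_comm, sub_self]

theorem ee_eqv (g : G) (a b : A) : ee S m (α g a) (α g b) = μ g (ee S m a b) := by
  rw [ee, ee, ← map_nsmul, ← map_nsmul, h.po_eqv, h.po_eqv, map_sub]

variable {p q p' q' : A} (hp : π (m • p' - p) = 0) (hq : π (m • q' - q) = 0)
include hp hq

theorem F0_d {g j : G} (gq : α g q = q) (jp : α j p = p) :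
    F0 α S m p q p' q' g + μ g (F0 α S m p q p' q' j) - F0 α S m p q p' q' (g * j) =
      ee S m (α g q' - q') (α g (α j p' - p')) := by
  have e1 : m • (α g q' - q') = α g (m • q' - q) - (m • q' - q) := by
    rw [map_sub, gq, map_nsmul, smul_sub]; abel
  have e2 : m • α g (α j p' - p') = α g (α j (m • p' - p)) - α g (m • p' - p) := by
    rw [← map_sub, ← map_nsmul, map_sub (α j), jp, map_nsmul (α j), smul_sub]; congr 1; abel
  have k1 := h.ker g _ hq
  have k2 := h.ker g _ hp
  have k3 := h.ker g _ (h.ker j _ hp)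
  rw [ee, e1, e2]
  simp only [F0, h.amul, map_sub (μ g), ← h.po_eqv, map_sub (α g) (α j _)]
  generalize m • p' - p = n at *
  generalize m • q' - q = n' at *
  simp only [h.sub_l k1 hq, h.sub_l k3 k2, h.sub_l k2 hp, h.sub_l k3 hp, h.sub_r hq, h.sub_r k1,
    h.sub_r k2, h.sub_r k3]
  abel

theorem F0_smul {g : G} (gp : α g p = p) (gq : α g q = q) :
    m • F0 α S m p q p' q' g = po S (m • p' - p) q - μ g (po S (m • p' - p) q) := by
  have e2 : m • (α g p' - p') = α g (m • p' - p) - (m • p' - p) := by
    rw [map_sub, gp, map_nsmul, smul_sub]; abel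
  have k2 := h.ker g _ hp
  have k : π (α g (m • p' - p) - (m • p' - p)) = 0 := by rw [map_sub, k2, hp, sub_self]
  rw [F0, smul_sub, ← h.smul_r hq, e2, ← h.smul_r k, po_comm, h.sub_r k, h.sub_l k2 hp q,
    ← h.po_eqv, gq]
  abel

theorem F0_fix {g : G} (gq : α g q = q) (gq' : α g q' = q') :
    F0 α S m p q p' q' g = μ g (po S (m • q' - q) p' - po S (m • p' - p) q') -
      (po S (m • q' - q) p' - po S (m • p' - p) q') := by
  rw [F0, h.sub_r hq, h.sub_l (h.ker g _ hp) hp, map_sub (μ g), ← h.po_eqv, ← h.po_eqv, gq',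
    map_sub (α g) (m • q'), map_nsmul, gq, gq']
  abel

theorem fix_smul : m • (po S (m • q' - q) p' - po S (m • p' - p) q') + po S (m • p' - p) q =
    po S (m • q' - q) p := by
  have e := h.sub_r hq (m • p') p
  rw [po_comm, h.sub_r hp] at e
  rw [smul_sub, ← h.smul_r hq, ← h.smul_r hp]
  linear_combination (norm := module) -e

end Cb

/-- the local computation: `f` kills units, `s + ν ∘ π` is quadratic on the preimage of `H` -/
theorem loc {M' : Type*} [AddCommGroup M'] (f : M →+ M') (π : A →+ E) (H : AddSubgroup E)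
    {s : A → M} {k : E → E → M} {ν : E → M'}
    (hs : ∀ a b, s (a + b) + s (a - b) = k (π a) (π b) + 2 • s a + 2 • s b)
    (hν : ∀ P ∈ H, ∀ Q ∈ H, f (k P Q) + ν (P + Q) + ν (P - Q) = 2 • ν P + 2 • ν Q) (h0 : ν 0 = 0)
    {m : ℕ} {p q q' : A} (hp : π p ∈ H) (hq' : π q' ∈ H) (hq : π (m • q' - q) = 0) :
    f (po (fun x => 2 • s x) (m • q' - q) p) =
      m • (f (po (fun x => 2 • s x) q' p) + 2 • po ν (π q') (π p)) -
        (f (po (fun x => 2 • s x) q p) + 2 • po ν (π q) (π p)) := by
  let t : H.comap π → M' := fun a => f (s a) + ν (π a)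
  have par : ∀ a b : H.comap π, t (a + b) + t (a - b) = 0 + 2 • t a + 2 • t b := fun a b => by
    have e1 := congrArg f (hs a b)
    have e2 := hν _ a.2 _ b.2
    simp only [map_add, map_nsmul] at e1
    simp only [t, AddSubgroup.coe_add, AddSubgroup.coe_sub, map_add, map_sub]
    linear_combination (norm := module) e1 + e2
  have c0 : ∀ a b c, cu (fun x => 2 • t x) a b c = 0 := fun a b c => by
    rw [cu_par (k := fun _ _ => 0) (par _ _) (par _ _) (par _ _) (par _ _)]; simp
  have v : ∀ a b : H.comap π, bil _ c0 a b =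
      f (po (fun x => 2 • s x) a b) + 2 • po ν (π a) (π b) := fun a b => by
    simp only [bil_apply, po, t, AddSubgroup.coe_add, map_add, map_sub, map_nsmul]
    module
  have eq : π q = m • π q' := by rw [← map_nsmul, eq_comm, ← sub_eq_zero, ← map_sub, hq]
  have hq2 : π q ∈ H := eq ▸ H.nsmul_mem hq' m
  have e := v (m • ⟨q', hq'⟩ - ⟨q, hq2⟩) ⟨p, hp⟩
  rw [map_sub, map_nsmul, AddMonoidHom.sub_apply, AddMonoidHom.nsmul_apply, v, v] at e
  rw [e]
  change _ = f (po _ (m • q' - q) p) + 2 • po ν (π (m • q' - q)) (π p)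
  rw [hq, po, po, zero_add, h0]
  simp

end Vale.Agent.P014T.Bx
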