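import Vale.Agent.P014T.Bx.Q
import Vale.Agent.P014T.Bx.An
import Vale.Agent.P004Z.H.Glob
import Vale.Agent.P004M.TE.Tate

/-! # P014T, block BX: the algebraic theta function on the free group on the points -/

set_option autoImplicit false
set_option linter.all false

open Complex
open scoped Classical Real ComplexConjugate

noncomputable section

namespace Vale.Agent.P014T.Bx

open Vale.Agent.P004H.H666 Vale.Agent.P004Z.H Vale.Agent.P004M.TE

section um

variable {F F' : Type} [Field F] [Field F']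

/-- a non zero element as a unit, written additively -/
def um (x : F) : Additive Fˣ := if h : x = 0 then 0 else Additive.ofMul (Units.mk0 x h)

/-- the value -/
def vl (x : Additive Fˣ) : F := (Additive.toMul x : Fˣ)

theorem vl_um {x : F} (h : x ≠ 0) : vl (um x) = x := by rw [um, dif_neg h]; rfl

theorem vl_ne (x : Additive Fˣ) : vl x ≠ 0 := Units.ne_zero _

theorem vl_inj {x y : Additive Fˣ} (h : vl x = vl y) : x = y := Additive.ext (Units.ext h)

theorem um_vl (x : Additive Fˣ) : um (vl x) = x := vl_inj (vl_um (vl_ne x))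

theorem vl_zero : vl (0 : Additive Fˣ) = 1 := rfl

theorem vl_add (x y : Additive Fˣ) : vl (x + y) = vl x * vl y := rfl

theorem vl_neg (x : Additive Fˣ) : vl (-x) = (vl x)⁻¹ := Units.val_inv_eq_inv_val _

theorem vl_sub (x y : Additive Fˣ) : vl (x - y) = vl x / vl y := Units.val_div_eq_div_val _ _

theorem vl_smul (n : ℕ) (x : Additive Fˣ) : vl (n • x) = vl x ^ n := Units.val_pow_eq_pow_val _ _

theorem vl_zsmul (n : ℤ) (x : Additive Fˣ) : vl (n • x) = vl x ^ n :=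
  Units.val_zpow_eq_zpow_val _ _

theorem um_one : um (1 : F) = 0 := vl_inj (vl_um one_ne_zero)

theorem um_mul {x y : F} (hx : x ≠ 0) (hy : y ≠ 0) : um (x * y) = um x + um y :=
  vl_inj (by rw [vl_add, vl_um hx, vl_um hy, vl_um (mul_ne_zero hx hy)])

theorem um_pow {x : F} (hx : x ≠ 0) (n : ℕ) : um (x ^ n) = n • um x :=
  vl_inj (by rw [vl_smul, vl_um hx, vl_um (pow_ne_zero n hx)])

/-- the map on units -/
def mu (f : F →+* F') : Additive Fˣ →+ Additive F'ˣ :=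
  MonoidHom.toAdditive (Units.map (f : F →* F'))

theorem vl_mu (f : F →+* F') (x : Additive Fˣ) : vl (mu f x) = f (vl x) := rfl

theorem mu_um (f : F →+* F') (x : F) : mu f (um x) = um (f x) := by
  by_cases h : x = 0
  · simp [h, um]
  · exact vl_inj (by rw [vl_mu, vl_um h, vl_um ((map_ne_zero f).2 h)])

theorem um_par {x y c a b : F} (hc : c ≠ 0) (ha : a ≠ 0) (hb : b ≠ 0)
    (h : x * y = c * a ^ 2 * b ^ 2) : um x + um y = um c + 2 • um a + 2 • um b := by
  have k := mul_ne_zero (mul_ne_zero hc (pow_ne_zero 2 ha)) (pow_ne_zero 2 hb)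
  rw [← h] at k
  rw [← um_mul (left_ne_zero_of_mul k) (right_ne_zero_of_mul k), h,
    um_mul (mul_ne_zero hc (pow_ne_zero 2 ha)) (pow_ne_zero 2 hb), um_mul hc (pow_ne_zero 2 ha),
    um_pow ha, um_pow hb]

end um

variable {A B : ℤ}

/-- the free group on the points -/
abbrev Fr (A B : ℤ) := Pt A B →₀ ℤ

/-- a generator -/
abbrev gn (x : Pt A B) : Fr A B := Finsupp.single x 1

/-- the map given on the generators -/
def lf {M : Type} [AddCommGroup M] (c : Pt A B → M) : Fr A B →+ M :=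
  Finsupp.liftAddHom fun x => zmultiplesHom M (c x)

theorem lf_gn {M : Type} [AddCommGroup M] (c : Pt A B → M) (x : Pt A B) : lf c (gn x) = c x := by
  simp [lf]

theorem fr_ext {M : Type} [AddCommGroup M] {f g : Fr A B →+ M} (h : ∀ x, f (gn x) = g (gn x)) :
    f = g :=
  Finsupp.addHom_ext fun x n => by
    rw [show Finsupp.single x n = n • gn x by simp, map_zsmul, map_zsmul, h]

/-- the sum -/
def pi : Fr A B →+ Pt A B := lf id

theorem pi_gn (x : Pt A B) : pi (gn x) = x := lf_gn _ _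

/-- the action -/
def al (g : GQ) : Fr A B →+ Fr A B := lf fun x => gn (ga g x)

theorem al_gn (g : GQ) (x : Pt A B) : al g (gn x) = gn (ga g x) := lf_gn _ _

theorem pi_al (g : GQ) (a : Fr A B) : pi (al g a) = ga g (pi a) :=
  DFunLike.congr_fun (fr_ext (f := pi.comp (al g)) (g := (ga g).comp pi) fun x => by
    simp only [AddMonoidHom.comp_apply, al_gn, pi_gn]) a

theorem al_mul (g h : GQ) (a : Fr A B) : al (g * h) a = al g (al h a) :=
  DFunLike.congr_fun (fr_ext (f := al (g * h)) (g := (al g).comp (al h)) fun x => by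
    simp only [AddMonoidHom.comp_apply, al_gn, ga_mul]) a

/-- the square, written additively -/
def SS {F : Type} [Field F] (s : Fr A B → F) (a : Fr A B) : Additive Fˣ := 2 • um (s a)

/-- the algebraic theta function -/
structure Sg (s : Fr A B → Qb) : Prop where
  ne : ∀ a, s a ≠ 0
  par : ∀ a b, s (a + b) * s (a - b) = cc (pi a) (pi b) * s a ^ 2 * s b ^ 2
  even : ∀ a, s (-a) = s a
  one : ∀ x, s (gn x) = 1
  two : ∀ x y, x ≠ y → s (gn x + gn y) = 1
  nd : ∀ m : ℕ, m ≠ 0 → ∃ ζ : Qb, IsPrimitiveRoot ζ m ∧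
    (∀ a b, pi (m • a) = 0 → pi (m • b) = 0 → ∃ k : ℤ, vl (ee (SS s) m a b) = ζ ^ (4 * k)) ∧
    ∃ a b, pi (m • a) = 0 ∧ pi (m • b) = 0 ∧ vl (ee (SS s) m a b) = ζ ^ 4

theorem hDb (hD : 4 * A ^ 3 + 27 * B ^ 2 ≠ 0) :
    16 * (4 * algebraMap ℚ Qb A ^ 3 + 27 * algebraMap ℚ Qb B ^ 2) ≠ 0 := by
  simp only [map_intCast]
  exact_mod_cast mul_ne_zero (by norm_num) hD

theorem cc_iE (P Q : Pt A B) : cc (iE P) (iE Q) = io (cc P Q) := cc_map _ _ _ P Q

theorem cc_ga (g : GQ) (P Q : Pt A B) : cc (ga g P) (ga g Q) = g (cc P Q) :=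
  cc_map _ ((g : Qb →ₐ[ℚ] Qb).commutes _) ((g : Qb →ₐ[ℚ] Qb).commutes _) P Q

theorem ex_beta (c : Pt A B → Pt A B → ℂ) (hc : ∀ x y, c x y = c y x) :
    ∃ β : Fr A B →+ Fr A B →+ ℂ, (∀ x y, β (gn x) (gn y) = c x y) ∧ ∀ a a', β a a' = β a' a := by
  have hβ : ∀ x y, (lf fun x => lf (c x)) (gn x) (gn y) = c x y := fun x y => by rw [lf_gn, lf_gn]
  refine ⟨_, hβ, fun a a' => ?_⟩
  exact DFunLike.congr_fun (DFunLike.congr_fun (fr_ext (g := (lf fun x => lf (c x)).flip)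
    fun x => fr_ext fun y => by rw [AddMonoidHom.flip_apply, hβ, hβ, hc]) a) a'

theorem cu_par0 {X M : Type} [AddCommGroup X] [AddCommGroup M] {q : X → M}
    (p : ∀ a b, q (a + b) + q (a - b) = 0 + 2 • q a + 2 • q b) (a b c : X) :
    cu (fun x => 2 • q x) a b c = 0 :=
  (cu_par (k := fun _ _ => 0) (p _ _) (p _ _) (p _ _) (p _ _)).trans (by simp)

theorem alg (hD : 4 * A ^ 3 + 27 * B ^ 2 ≠ 0) {t : Fr A B → ℂ} (t0 : ∀ a, t a ≠ 0)
    (tp : ∀ a a', t (a + a') * t (a - a') = io (cc (pi a) (pi a')) * t a ^ 2 * t a' ^ 2)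
    (tn : ∀ a, t (-a) = t a) (t1 : ∀ x, t (gn x) = 1) (t2 : ∀ x y, x ≠ y → t (gn x + gn y) = 1)
    (a : Fr A B) : ∃ z, io z = t a := by
  let f := QuotientAddGroup.mk' (mu (io : Qb →+* ℂ)).range
  have p : ∀ a a', f (um (t (a + a'))) + f (um (t (a - a'))) =
      0 + 2 • f (um (t a)) + 2 • f (um (t a')) := fun a a' => by
    rw [← map_add, um_par ((map_ne_zero io).2 (cc_ne (hDb hD) _ _)) (t0 a) (t0 a') (tp a a'),
      map_add, map_add, map_nsmul, map_nsmul]
    congr 2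
    exact (QuotientAddGroup.eq_zero_iff _).2 ⟨um _, mu_um _ _⟩
  have k := triv (q := fun a => 2 • f (um (t a))) (fun a a' a'' => by
    exact cu_par0 p a a' a'')
    (fun a => by rw [tn]) (fun x => by rw [t1, um_one, map_zero, smul_zero])
    (fun x y e => by rw [t2 x y e, um_one, map_zero, smul_zero]) a
  rw [← map_nsmul] at k
  obtain ⟨y, hy⟩ := (QuotientAddGroup.eq_zero_iff _).1 k
  obtain ⟨z, hz⟩ := IsAlgClosed.exists_pow_nat_eq (vl y) two_pos
  have e : t a ^ 2 = io z ^ 2 := by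
    rw [← map_pow, hz, ← vl_um (t0 a), ← vl_smul, ← hy]; rfl
  rcases sq_eq_sq_iff_eq_or_eq_neg.1 e with e | e
  exacts [⟨z, e.symm⟩, ⟨-z, by rw [map_neg, e]⟩]

/-- the analytic data -/
structure Dt (A B : ℤ) where
  ex : ℂ →+ EC A B
  s : ℂ → ℂ
  w1 : ℂ
  w2 : ℂ
  b : ℝ
  L : Fr A B →+ ℂ
  sj : Function.Surjective ex
  ker : ∀ z, ex z = 0 ↔ ∃ m n : ℤ, z = m * w1 + n * w2
  hb : b * (conj w1 * w2).im = π
  s0 : ∀ u, s u ≠ 0
  sn : ∀ u, s (-u) = s u
  par : ∀ u v, s (u + v) * s (u - v) = cc (ex u) (ex v) * s u ^ 2 * s v ^ 2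
  law : ∀ l u, ex l = 0 → s (l + u) = cexp (2 * b * conj l * u) * s l * s u
  hL : ∀ a, ex (L a) = iE (pi a)

theorem ex_dt (hD : 4 * A ^ 3 + 27 * B ^ 2 ≠ 0) : Nonempty (Dt A B) := by
  obtain ⟨ex, s, w1, w2, b, sj, ker, hb, s0, sn, sp', law⟩ :=
    an (A : ℂ) (B : ℂ) (by exact_mod_cast hD)
  choose u hu using fun x : Pt A B => sj (iE x)
  exact ⟨⟨ex, s, w1, w2, b, lf u, sj, ker, hb, s0, sn, sp', law, fun a =>
    DFunLike.congr_fun (fr_ext (f := ex.comp (lf u)) (g := iE.comp pi) fun x => by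
      simp only [AddMonoidHom.comp_apply, lf_gn, pi_gn, hu]) a⟩⟩

theorem io_inj : Function.Injective io := (io : Qb →+* ℂ).injective

namespace Dt

variable (D : Dt A B)

theorem tp (β : Fr A B →+ Fr A B →+ ℂ) (a a' : Fr A B) :
    D.s (D.L (a + a')) * cexp (β (a + a') (a + a')) * (D.s (D.L (a - a')) * cexp (β (a - a') (a - a'))) =
      io (cc (pi a) (pi a')) * (D.s (D.L a) * cexp (β a a)) ^ 2 * (D.s (D.L a') * cexp (β a' a')) ^ 2 := by
  have e : cexp (β (a + a') (a + a')) * cexp (β (a - a') (a - a')) =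
      cexp (β a a) ^ 2 * cexp (β a' a') ^ 2 := by
    rw [← Complex.exp_nat_mul, ← Complex.exp_nat_mul, ← Complex.exp_add, ← Complex.exp_add]
    simp only [map_add, map_sub, AddMonoidHom.add_apply, AddMonoidHom.sub_apply]
    congr 1
    push_cast
    ring
  have k := D.par (D.L a) (D.L a')
  rw [D.hL, D.hL, cc_iE, ← map_add, ← map_sub] at k
  linear_combination (cexp (β (a + a') (a + a')) * cexp (β (a - a') (a - a'))) * k +
    io (cc (pi a) (pi a')) * D.s (D.L a) ^ 2 * D.s (D.L a') ^ 2 * e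

theorem norm : ∃ β : Fr A B →+ Fr A B →+ ℂ, (∀ a a', β a a' = β a' a) ∧
    (∀ x, D.s (D.L (gn x)) * cexp (β (gn x) (gn x)) = 1) ∧
    ∀ x y, x ≠ y → D.s (D.L (gn x + gn y)) * cexp (β (gn x + gn y) (gn x + gn y)) = 1 := by
  obtain ⟨β, hβ, βs⟩ := ex_beta (A := A) (B := B) (fun x y => if x = y then -log (D.s (D.L (gn x)))
    else (log (D.s (D.L (gn x))) + log (D.s (D.L (gn y))) - log (D.s (D.L (gn x + gn y)))) / 2)
    fun x y => by
      by_cases e : x = y
      · rw [e]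
      · rw [if_neg e, if_neg (Ne.symm e), add_comm (gn x), add_comm (log _)]
  refine ⟨β, βs, fun x => ?_, fun x y e => ?_⟩
  · rw [hβ, if_pos rfl, Complex.exp_neg, Complex.exp_log (D.s0 _), mul_inv_cancel₀ (D.s0 _)]
  · have : β (gn x + gn y) (gn x + gn y) = -log (D.s (D.L (gn x + gn y))) := by
      rw [map_add β, AddMonoidHom.add_apply, map_add (β _), map_add (β _), βs (gn y) (gn x), hβ, hβ,
        hβ, if_pos rfl, if_pos rfl, if_neg e]
      ring
    rw [this, Complex.exp_neg, Complex.exp_log (D.s0 _), mul_inv_cancel₀ (D.s0 _)]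

theorem pi0 {a : Fr A B} {i j : ℤ} (h : D.L a = i * D.w1 + j * D.w2) : pi a = 0 :=
  pm_inj _ _ _ ((D.hL _).symm.trans (((D.ker _).2 ⟨i, j, h⟩).trans (map_zero iE).symm))

variable {m : ℕ} (m0 : m ≠ 0)
include m0

include D in
theorem fin : {P : EC A B | m • P = 0}.Finite := by
  have m0' : (m : ℂ) ≠ 0 := Nat.cast_ne_zero.2 m0
  refine (Set.finite_range fun p : Fin m × Fin m => D.ex ((p.1 * D.w1 + p.2 * D.w2) / m)).subset ?_
  intro P hP
  obtain ⟨z, rfl⟩ := D.sj P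
  obtain ⟨i, j, e⟩ := (D.ker (m • z)).1 ((map_nsmul _ _ _).trans hP)
  have mz : (m : ℤ) ≠ 0 := Int.natCast_ne_zero.2 m0
  have lt : ∀ i : ℤ, (i % m).toNat < m := fun i => by
    have := Int.emod_nonneg i mz
    have := Int.emod_lt_of_pos i (show (0 : ℤ) < m by omega)
    omega
  have cs : ∀ i : ℤ, ((i % m).toNat : ℂ) = i - m * (i / m : ℤ) := fun i => by
    rw [← Int.cast_natCast, Int.toNat_of_nonneg (Int.emod_nonneg i mz), Int.emod_def]
    push_cast
    rfl
  refine ⟨(⟨_, lt i⟩, ⟨_, lt j⟩), ?_⟩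
  rw [← sub_eq_zero, ← map_sub, D.ker]
  refine ⟨-(i / m), -(j / m), ?_⟩
  rw [nsmul_eq_mul] at e
  simp only [cs]
  push_cast
  field_simp
  linear_combination -e

theorem lift {w : ℂ} (hw : D.ex w = 0) :
    ∃ a, ∃ i j : ℤ, D.L (m • a) = w + m * (i * D.w1 + j * D.w2) := by
  have m0' : (m : ℂ) ≠ 0 := Nat.cast_ne_zero.2 m0
  obtain ⟨Q, hQ⟩ := Fo.ex (P := D.ex (w / m)) ((D.fin m0).subset (by
    rintro _ ⟨σ, rfl⟩
    change m • _ = 0
    rw [← map_nsmul, ← map_nsmul, nsmul_eq_mul, mul_div_cancel₀ _ m0', hw, map_zero]))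
  obtain ⟨i, j, e⟩ := (D.ker (D.L (gn Q) - w / m)).1 (by rw [map_sub, D.hL, pi_gn, hQ, sub_self])
  refine ⟨gn Q, i, j, ?_⟩
  rw [map_nsmul, nsmul_eq_mul, ← e]
  field_simp
  ring

variable {β : Fr A B →+ Fr A B →+ ℂ} (βs : ∀ a a', β a a' = β a' a) {r : Fr A B → Qb}
  (hr : ∀ a, io (r a) = D.s (D.L a) * cexp (β a a))
include βs hr

omit m0 in
theorem e1 {n : Fr A B} (a : Fr A B) (hn : pi n = 0) :
    io (vl (po (SS r) n a)) = cexp (4 * D.b * conj (D.L n) * D.L a + 4 * β n a) := by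
  have r0 : ∀ a, r a ≠ 0 := fun a e =>
    mul_ne_zero (D.s0 _) (exp_ne_zero _) (by rw [← hr, e, map_zero])
  have k := D.law (D.L n) (D.L a) (by rw [D.hL, hn, map_zero])
  have := D.s0 (D.L n)
  have := D.s0 (D.L a)
  simp only [po, SS, vl_sub, vl_smul, vl_um (r0 _), map_div₀, map_pow, hr]
  rw [map_add D.L, k, map_add β, AddMonoidHom.add_apply, map_add (β _), map_add (β _), βs a n,
    show 4 * D.b * conj (D.L n) * D.L a + 4 * β n a =
      (2 : ℕ) * (2 * D.b * conj (D.L n) * D.L a + (β n a + β n a)) by push_cast; ring,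
    Complex.exp_nat_mul]
  simp only [Complex.exp_add]
  field_simp

theorem e2 {ζ : Qb} (hζ : io ζ = cexp (2 * π * I / m)) {a a' : Fr A B} {i j k l : ℤ}
    (h : D.L (m • a) = i * D.w1 + j * D.w2) (h' : D.L (m • a') = k * D.w1 + l * D.w2) :
    vl (ee (SS r) m a a') = ζ ^ (4 * (i * l - j * k)) := io_inj (by
  have m0' : (m : ℂ) ≠ 0 := Nat.cast_ne_zero.2 m0
  have d : ∀ a (x : ℂ), D.L (m • a) = x → D.L a = x / m := fun a x h => by
    rw [← h, map_nsmul, nsmul_eq_mul, mul_div_cancel_left₀ _ m0']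
  have q : conj D.w2 * D.w1 = conj D.w1 * D.w2 - 2 * I * (conj D.w1 * D.w2).im := by
    apply Complex.ext <;> simp <;> ring
  have hb' : (D.b : ℂ) * (conj D.w1 * D.w2).im = π := by exact_mod_cast D.hb
  rw [ee, vl_sub, map_div₀, D.e1 βs hr _ (D.pi0 h), D.e1 βs hr _ (D.pi0 h'), ← Complex.exp_sub,
    map_zpow₀, hζ, ← Complex.exp_int_mul, h, h', d a _ h, d a' _ h', map_nsmul β, map_nsmul β,
    AddMonoidHom.nsmul_apply, AddMonoidHom.nsmul_apply, βs a' a]
  congr 1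
  simp only [map_add, map_mul, map_intCast]
  push_cast
  field_simp
  linear_combination (-D.b * (i * l - j * k)) * q + (2 * I * (i * l - j * k)) * hb')

theorem nd : ∃ ζ : Qb, IsPrimitiveRoot ζ m ∧
    (∀ a b, pi (m • a) = 0 → pi (m • b) = 0 → ∃ k : ℤ, vl (ee (SS r) m a b) = ζ ^ (4 * k)) ∧
    ∃ a b, pi (m • a) = 0 ∧ pi (m • b) = 0 ∧ vl (ee (SS r) m a b) = ζ ^ 4 := by
  have pz := Complex.isPrimitiveRoot_exp m m0
  obtain ⟨ζ, hζ⟩ := ex_io (z := cexp (2 * π * I / m))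
    (pz.isIntegral (Nat.pos_of_ne_zero m0)).tower_top.isAlgebraic
  have pr : IsPrimitiveRoot ζ m :=
    IsPrimitiveRoot.of_map_of_injective (f := (io : Qb →+* ℂ)) (hζ ▸ pz) io_inj
  refine ⟨ζ, pr, fun a a' h h' => ?_, ?_⟩
  · obtain ⟨i, j, e⟩ := (D.ker _).1 ((D.hL _).trans (by rw [h, map_zero]))
    obtain ⟨k, l, e'⟩ := (D.ker _).1 ((D.hL _).trans (by rw [h', map_zero]))
    exact ⟨_, D.e2 m0 βs hr hζ e e'⟩
  obtain ⟨a, i, j, h⟩ := D.lift m0 ((D.ker D.w1).2 ⟨1, 0, by simp⟩)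
  obtain ⟨a', k, l, h'⟩ := D.lift m0 ((D.ker D.w2).2 ⟨0, 1, by simp⟩)
  have h1 : D.L (m • a) = (1 + m * i : ℤ) * D.w1 + (m * j : ℤ) * D.w2 := by
    rw [h]; push_cast; ring
  have h2 : D.L (m • a') = (m * k : ℤ) * D.w1 + (1 + m * l : ℤ) * D.w2 := by
    rw [h']; push_cast; ring
  refine ⟨a, a', D.pi0 h1, D.pi0 h2, ?_⟩
  rw [D.e2 m0 βs hr hζ h1 h2, show 4 * ((1 + m * i) * (1 + m * l) - m * j * (m * k)) =
    4 + (m : ℤ) * (4 * (i + l + m * i * l - m * j * k)) by ring, zpow_add₀ (pr.ne_zero m0), zpow_mul,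
    pr.zpow_eq_one, one_zpow, mul_one]
  exact zpow_ofNat ζ 4

end Dt

theorem ex_sg (hD : 4 * A ^ 3 + 27 * B ^ 2 ≠ 0) : ∃ s : Fr A B → Qb, Sg s := by
  obtain ⟨D⟩ := ex_dt hD
  obtain ⟨β, βs, t1, t2⟩ := D.norm
  have t0 := fun a => mul_ne_zero (D.s0 (D.L a)) (exp_ne_zero (β a a))
  have tn : ∀ a, D.s (D.L (-a)) * cexp (β (-a) (-a)) = D.s (D.L a) * cexp (β a a) := fun a => by
    simp only [map_neg, D.sn, AddMonoidHom.neg_apply, neg_neg]
  choose r hr using alg hD t0 (D.tp β) tn t1 t2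
  refine ⟨r, fun a e => t0 a (by rw [← hr, e, map_zero]), fun a a' => io_inj ?_,
    fun a => io_inj (by rw [hr, hr, tn]), fun x => io_inj (by rw [hr, t1, map_one]),
    fun x y e => io_inj (by rw [hr, t2 x y e, map_one]), fun m m0 => D.nd m0 βs hr⟩
  simp only [map_mul, map_pow, hr, D.tp]

namespace Sg

variable (hD : 4 * A ^ 3 + 27 * B ^ 2 ≠ 0) {s : Fr A B → Qb} (h : Sg s)
include hD h

theorem upar (a b : Fr A B) : um (s (a + b)) + um (s (a - b)) =
    um (cc (pi a) (pi b)) + 2 • um (s a) + 2 • um (s b) :=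
  um_par (cc_ne (hDb hD) _ _) (h.ne a) (h.ne b) (h.par a b)

theorem cu_eq (a b c : Fr A B) : cu (SS s) a b c = um (cc (pi a + pi b) (pi c)) +
    um (cc (pi a + pi c) (pi b)) - um (cc (pi a) (pi b - pi c)) - 2 • um (cc (pi b) (pi c)) := by
  rw [← map_add, ← map_add, ← map_sub]
  exact cu_par (q := fun a => um (s a))
    (k := fun a b => um (cc (pi a) (pi b))) (h.upar hD (a + b) c) (h.upar hD a (b - c))
    (h.upar hD (a + c) b) (h.upar hD b c)

theorem zero : SS s 0 = 0 := by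
  have e := h.upar hD 0 0
  have e' : cc (0 : Pt A B) 0 = 1 := by simp [cc, FF, st]
  rw [add_zero, sub_zero, map_zero, e', um_one] at e
  rw [SS]
  linear_combination (norm := module) -e

/-- **the cubical structure** -/
theorem cb : Cb (G := GQ) al (fun g => mu (g : Qb →+* Qb)) pi (SS s) where
  amul := al_mul
  mmul g j x := vl_inj rfl
  eqv g a := sub_eq_zero.1 (triv (q := fun a => SS s (al g a) - mu (g : Qb →+* Qb) (SS s a))
    (fun a b c => by
      rw [cu_sub, cu_comp, cu_map, h.cu_eq hD, h.cu_eq hD]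
      simp only [pi_al, ← map_add (ga g), ← map_sub (ga g), cc_ga]
      rw [map_sub, map_sub, map_add, map_nsmul, mu_um, mu_um, mu_um, mu_um]
      exact sub_self _)
    (fun a => by rw [map_neg, SS, SS, SS, SS, h.even, h.even])
    (fun x => by simp only [al_gn, SS, h.one, um_one, smul_zero, map_zero, sub_self])
    (fun x y e => by
      rw [map_add, al_gn, al_gn, SS, SS, h.two x y e, h.two (ga g x) (ga g y) fun k => e (pa_inj _ k)]
      simp only [um_one, smul_zero, map_zero, sub_self]) a)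
  ker g n hn := by rw [pi_al, hn, map_zero]
  cu0 n a b hn := by
    rw [← h.zero hD, ← cu_zero (SS s) a b, h.cu_eq hD, h.cu_eq hD, hn, map_zero]

end Sg

end Vale.Agent.P014T.Bx
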